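import Vale.Agent.P086L.Br

namespace Vale.Agent.Results.P086.ALiteral

open Vale.Agent.P086L

/-- (1) For every group `G` the operators `λ(g)` exist on `ℓ²(G)`, `L G` is the double commutant
of `λ(G)`, and `τ` is a faithful tracial state on it. (2) For `2 ≤ n ≤ ∞` the algebra `L(F_n)` is
an infinite-dimensional factor. (3) For all `2 ≤ m, n ≤ ∞` there is a trace preserving star algebra
isomorphism of `L(F_m)` onto `L(F_n)`. -/
theorem result :
    (∀ (G : Type) [Group G],
      (∀ g : G, ∃! T, IsLam g T) ∧ IsBicommutant (lams G) (L G) ∧ IsFaithfulTrace (L G) (tau G)) ∧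
    (∀ n : ℕ∞, 2 ≤ n → TrivialCentre (L (F n)) ∧ InfDim (L (F n))) ∧
    ∀ m n : ℕ∞, 2 ≤ m → 2 ≤ n → TraceIso (L (F m)) (tau (F m)) (L (F n)) (tau (F n)) :=
  ⟨basic, fun _ hn => factor hn, fun _ _ hm hn => iso hm hn⟩

end Vale.Agent.Results.P086.ALiteral
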